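import Vale.Agent.P167.Main

open Filter Topology

theorem Vale.Agent.Results.P167.Loops.result (q : ℝ) (h0 : 0 < q) (h4 : q ≤ 4) :
    ∃ σ > 0, ∀ f, Vale.Agent.P152.Test f → ∃ (a : ℝ → ℕ → ℝ) (b : ℝ → ℝ),
      (∀ δ > 0, ∀ l, Tendsto (fun m => Vale.Agent.P167.avg q (2 * m + 2) (2 * l + 2) δ f) atTop (𝓝 (a δ l))) ∧
      (∀ δ > 0, Tendsto (a δ) atTop (𝓝 (b δ))) ∧
      Tendsto b (𝓝[>] 0) (𝓝 (Real.exp (-(σ ^ 2 * Vale.Agent.P152.cov f f) / 2))) :=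
  Vale.Agent.P167.main q h0 h4
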